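import Vale.Agent.P218F.Fin
import Vale.Agent.P218S7.Ultra
import Vale.Agent.P218S.St

/-! The smooth flow of a closed embedded surface up to its first singular time: the rescalings
converge weakly and locally smoothly, with multiplicity one, to one self-shrinker. -/

open MeasureTheory Set Filter Topology Metric
open scoped Manifold ContDiff RealInnerProductSpace

namespace Vale.Agent.Q218

open Vale.Agent.P218FT Vale.Agent.P218FS

/-- a surface is contained in every closed set which carries its area -/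
lemma subset_of_area {A B : Set E3} (hA : IsSurf A) (hB : IsClosed B) (h : area A = area B) :
    A ⊆ B := by
  intro x hx
  by_contra hn
  obtain ⟨ε, hε, hb⟩ := Metric.isOpen_iff.1 hB.isOpen_compl x hn
  obtain ⟨r, hr, hr0⟩ := ((Chart.lower_proof A hA x hx).and (Ioo_mem_nhdsGT hε)).exists
  have h1 : ball x r ∩ B = ∅ :=
    eq_empty_of_forall_notMem fun y hy => hb (ball_subset_ball hr0.2.le hy.1) hy.2
  have h2 : area B (ball x r) = 0 := by
    rw [area, Measure.restrict_apply measurableSet_ball, h1, measure_empty]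
  rw [h, h2] at hr
  exact absurd hr (not_le.2 (ENNReal.ofReal_pos.2 (by have := hr0.1; positivity)))

/-- smooth convergence to the weak limit along every ultrafilter -/
theorem ultra {D G : ℝ} {M : ℝ → Set E3} {a b : ℝ} (hab : a < b) (hC : InC D G M (Ioo a b))
    (x₀ : E3) {S : Set E3} (hS : IsSurf S)
    (hc : ∀ φ : E3 → ℝ, Continuous φ → HasCompactSupport φ →
      Tendsto (fun lam : ℝ => ∫ x, φ x ∂(area (scaleFlow lam x₀ b M (-1)))) atTop
        (𝓝 (∫ x, φ x ∂(area S))))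
    (U : Ultrafilter ℝ) (hU : ↑U ≤ (atTop : Filter ℝ)) :
    SLim U (fun lam => scaleFlow lam x₀ b M) (ssFlow S) (Iio 0) := by
  obtain ⟨S', h1, -, h3, -⟩ := conv_all D G M a b hab hC x₀ ℝ U (fun lam => lam) hU
  have h4 := h3.slice_const (t := -1) (by norm_num)
  have e : ssFlow S' (-1) = S' := scaleSet_one S'
  rw [e] at h4
  have h5 : ∀ᶠ lam in (U : Filter ℝ), IsSurf (scaleFlow lam x₀ b M (-1)) := by
    refine Eventually.filter_mono hU ?_
    filter_upwards [(tendsto_time b (-1)).eventually (lt_mem_nhds hab), eventually_gt_atTop 0]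
      with lam hl1 hl
    have hlt : b + -1 / lam ^ 2 < b := by
      have : 0 < 1 / lam ^ 2 := by positivity
      rw [neg_div]; linarith
    exact (hC.mcf.isSurf ⟨hl1, hlt⟩).scale hl.ne' x₀
  have i1 := Chart.locFin_proof S hS
  have i2 := Chart.locFin_proof S' h1.1
  have h6 : area S' = area S :=
    Measure.ext_of_integral_eq_on_compactlySupported fun f =>
      tendsto_nhds_unique (h4.tendsto_area h5 h1.1 f.continuous f.hasCompactSupport)
        ((hc f f.continuous f.hasCompactSupport).mono_left hU)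
  obtain rfl : S' = S :=
    (subset_of_area h1.1 hS.1 h6).antisymm (subset_of_area hS h1.1.1 h6.symm)
  exact h3

lemma shrinking_eq (S : Set E3) {s : ℝ} (hs : s < 0) :
    P218S.St.shrinkingSurface S s = ssFlow S s := by
  have h0 : √(-s) ≠ 0 := (Real.sqrt_pos.2 (neg_pos.2 hs)).ne'
  ext y
  simp only [P218S.St.shrinkingSurface, ssFlow, mem_image, scaleSet, mem_ofPred_eq, zero_add]
  constructor
  · rintro ⟨x, hx, rfl⟩
    rwa [inv_smul_smul₀ h0]
  · intro hy
    exact ⟨_, hy, smul_inv_smul₀ h0 y⟩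

/-- locally smooth convergence, in the words of the statement -/
theorem smooth {M M' : ℝ → ℝ → Set E3} {S : Set E3}
    (hu : ∀ V : Ultrafilter ℝ, ↑V ≤ (atTop : Filter ℝ) → SLim V M' (ssFlow S) (Iio 0))
    (he : ∀ᶠ lam in atTop, M lam = M' lam) :
    P218S.St.SmoothTendsto M (P218S.St.shrinkingSurface S) := by
  intro t ht' x
  rw [shrinking_eq S ht']
  refine ⟨fun hx => ?_, fun hx => ?_⟩
  · obtain ⟨e, J, pr, δ, ρ, f, f₀, F, d0, -, d1, c1, -, c2, c3⟩ :=
      P218S7.graph_of_ultra isOpen_Iio hu ht' hx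
    have d2 : δ ≤ -t := by
      by_contra hh
      have := d1 (0, 0) (by
        rw [← ball_prod_same]
        exact ⟨mem_ball_self d0, by
          rw [mem_ball_iff_norm, zero_sub, norm_neg, Real.norm_eq_abs, abs_of_neg ht']
          exact not_le.1 hh⟩)
      exact lt_irrefl (0 : ℝ) this
    refine ⟨⟨J.toLinearMap, F.norm_J⟩, e, δ, ρ, f, f₀, ⟨F.unit, F.orth⟩, d0, d2,
      ⟨c1.smooth_lim, fun q hq => ?_⟩, ?_, c1.conv⟩
    · rw [shrinking_eq S (d1 q hq)]
      exact ⟨(c2 q hq).1, fun z hz => (c2 q hq).2 z hz.le⟩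
    · filter_upwards [c1.smooth, c3, he] with lam a1 a2 a3
      rw [a3]
      exact ⟨a1, fun q hq => ⟨(a2 q hq).1, fun z hz => (a2 q hq).2 z hz.le⟩⟩
  · obtain ⟨W, hW, h1⟩ := P218S7.out_of_ultra isOpen_Iio hu ht' hx
    refine ⟨Prod.swap ⁻¹' W, continuous_swap.continuousAt.preimage_mem_nhds hW, ?_⟩
    filter_upwards [h1, he] with lam a1 a3 p hp
    rw [a3]
    exact a1 _ hp

universe u

/-- the final statement, with locally smooth convergence -/
theorem first (N : Type u) [TopologicalSpace N] [T2Space N] [CompactSpace N] [ConnectedSpace N]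
    [ChartedSpace R2 N] [IsManifold (𝓡 2) ∞ N] (F : ℝ → N → R3) (T : ℝ) (h : IsSmoothMCF F T)
    (μ : ℝ → Measure R3) (hμ : ∀ t ∈ Ico 0 T, μ t = (μHE[2] : Measure R3).restrict (range (F t)))
    (x₀ : R3) (t₀ : ℝ) (ht₀ : 0 < t₀) (hT : t₀ ≤ T) :
    ∃ S : Set R3, IsShrinker S ∧ (S.Nonempty ↔ IsReached F x₀ t₀) ∧
      IsTangentFlow μ x₀ t₀ (shrinkerFlow S) ∧
      (∀ ν : ℝ → Measure R3, IsTangentFlow μ x₀ t₀ ν → ∀ s < 0, ν s = shrinkerFlow S s) ∧
      (∀ s < 0, WeakTendsto atTop (fun lam : ℝ => rescaled μ x₀ t₀ lam s) (shrinkerFlow S s)) ∧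
      P218S.St.SmoothTendsto (P218S.St.rescaledSurface F x₀ t₀) (P218S.St.shrinkingSurface S) := by
  obtain ⟨S₀, -, hne, htan, hw₀, huniq⟩ := P218F.Fin.final N F T h μ hμ x₀ t₀ ht₀ hT
  have hcl := (h.mono hT).isClosedFlow
  have ha : t₀ / 2 ∈ Ioo 0 t₀ := ⟨by linarith, by linarith⟩
  obtain ⟨D, hD'⟩ := ratio _ _ _ hcl _ ha
  obtain ⟨G, hG'⟩ := P218F.Lgb.lgbFlow_proof _ _ _ hcl _ ha
  have hM : IsMCF (fun t => range (F t)) (Ioo (t₀ / 2) t₀) :=
    isMCF_mono hcl.mcf isOpen_Ioo (Ioo_subset_Ioo_left ha.1.le)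
  have hcl' : IsClosedFlow (fun t => range (F t)) (t₀ / 2) t₀ :=
    ⟨hM, hcl.bdd.imp fun R hR t ht => hR t (Ioo_subset_Ioo_left ha.1.le ht),
      fun t ht => hcl.conn t (Ioo_subset_Ioo_left ha.1.le ht)⟩
  obtain ⟨S, hS, hsh, hconv⟩ := P218F.Top.core_of_staticStmt (P218F.Top.static_of_LS P218F.Fin.ls)
    D G _ _ _ ha.2 hcl' ⟨hM, hD', hG'⟩ x₀
  have hw : ∀ s < 0, WeakTendsto atTop (fun lam : ℝ => rescaled μ x₀ t₀ lam s)
      (shrinkerFlow S s) := by
    intro s hs φ hφ hφc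
    rw [shrinkerFlow_eq S hs]
    refine (hconv s hs φ hφ hφc).congr' ?_
    filter_upwards [(tendsto_time t₀ s).eventually (lt_mem_nhds ht₀), eventually_gt_atTop 0]
      with lam hl1 hl
    have h1 : t₀ + s / lam ^ 2 < T := by
      have : s / lam ^ 2 < 0 := div_neg_of_neg_of_pos hs (by positivity)
      linarith
    rw [rescaled, hμ _ ⟨hl1.le, h1⟩, scaleFlow, area_scale hl]
    rfl
  have hlf : ∀ s < 0, IsLocallyFiniteMeasure (shrinkerFlow S s) := by
    intro s hs
    rw [shrinkerFlow_eq S hs]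
    exact Chart.locFin_proof _ (hS.scale (Real.sqrt_pos.2 (neg_pos.2 hs)).ne' 0)
  have htf : IsTangentFlow μ x₀ t₀ (shrinkerFlow S) :=
    ⟨hlf, fun i => (i : ℝ), tendsto_natCast_atTop_atTop,
      fun s hs φ hφ hφc => (hw s hs φ hφ hφc).comp tendsto_natCast_atTop_atTop⟩
  have he : ∀ s < 0, shrinkerFlow S s = shrinkerFlow S₀ s := huniq _ htf
  have hc1 := hconv (-1) (by norm_num)
  rw [scaleSet_one] at hc1
  refine ⟨S, isShrinker_of hS hsh, ⟨fun hx => hne.1 ?_, ?_⟩, htf,
    fun ν hν s hs => (huniq ν hν s hs).trans (he s hs).symm, hw,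
    smooth (ultra ha.2 ⟨hM, hD', hG'⟩ x₀ hS hc1) ?_⟩
  · by_contra hn
    rw [not_nonempty_iff_eq_empty] at hn
    have h1 := he (-1) (by norm_num)
    rw [shrinkerFlow_eq S (by norm_num), shrinkerFlow_eq S₀ (by norm_num), scaleSet_one,
      scaleSet_one, hn] at h1
    exact hx.not_subset_empty (subset_of_area hS isClosed_empty h1)
  · rintro ⟨t, p, h1, h2, h3⟩
    obtain ⟨φ, hφ, hφc, h4⟩ := mass_of_reached P218FT.huisken Hu.dens_proof ha.2 hM hD' (x₀ := x₀)
      fun δ hδ => by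
        obtain ⟨i, hi1, hi2⟩ := ((h2.eventually (lt_mem_nhds (sub_lt_self t₀ hδ))).and
          (h3.eventually (ball_mem_nhds x₀ hδ))).exists
        exact ⟨t i, ⟨hi1, h1 i⟩, _, ⟨p i, rfl⟩, by rwa [← dist_eq_norm]⟩
    have h5 := ge_of_tendsto (hc1 φ hφ hφc) h4
    by_contra hn
    rw [not_nonempty_iff_eq_empty] at hn
    rw [hn, area, Measure.restrict_empty, integral_zero_measure] at h5
    norm_num at h5
  · filter_upwards [eventually_gt_atTop 0] with lam hl
    funext s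
    ext y
    simp only [P218S.St.rescaledSurface, scaleFlow, scaleSet, mem_image, mem_ofPred_eq]
    constructor
    · rintro ⟨x, hx, rfl⟩
      rwa [Sc.up_dn hl.ne']
    · intro hy
      exact ⟨_, hy, Sc.dn_up hl.ne' x₀ y⟩

end Vale.Agent.Q218
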